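import Crest.Agent.N255.Vh.Geo

/-!
# Row 255 (helper76): the vertex theorem `VertexH` and `CoreH`
-/

set_option autoImplicit false
set_option linter.unusedSectionVars false

namespace N255.Vh

open Finset N255.Dr N255.Dr.O N255.Core N255.Vx LaurentPolynomial

variable {p : ℕ} [Fact p.Prime] {Γ : Type} [AddCommGroup Γ] {δ : Γ} {s : Fin 3 → Type}
  [∀ i, Fintype (s i)] [∀ i, DecidableEq (s i)] {w : ∀ i, Wall p Γ δ (s i)} {t : Fin 3 → Bool}
  {V : Type} [Fintype V] [DecidableEq V] {N La : ℕ} {v : VxD w t N La V}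

/-- the Gaussian term of a pair -/
noncomputable def ga (v : VxD w t N La V) (b : Bi w t) : O p (ZMod p) V :=
  v.c b.1.1 b.1.2 • (z (v.em (b.1, false)) * z (v.em (b.1, true)))

theorem ga_mem (b : Bi w t) : ga v b ∈ (mx : Ideal (O p (ZMod p) V)) ^ 2 := by
  rw [ga, Algebra.smul_def, pow_two]
  exact Ideal.mul_mem_left _ _ (Ideal.mul_mem_mul (z_mem _) (z_mem _))

theorem E_ga (b : Bi w t) : O.E (xu (ga v b)) = tx p (xu (ga v b)) := by
  have : xu (ga v b) = ((-T (-1) : Au p) • bc (Au p) (v.c b.1.1 b.1.2 •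
      (z (v.em (b.1, false)) : O p (ZMod p) V))) * z (v.em (b.1, true)) := by
    rw [xu, ga, ← smul_mul_assoc, map_mul, bc_z, smul_mul_assoc]
  rw [this]
  refine E_mul ?_ (z_mem _)
  rw [Algebra.smul_def]
  refine Ideal.mul_mem_left _ _ (bc_mem _ ?_)
  rw [Algebra.smul_def]
  exact Ideal.mul_mem_left _ _ (z_mem _)

/-- the Gaussian factor -/
noncomputable def GG (v : VxD w t N La V) : O p (Au p) V := ∏ b, tx p (xu (ga v b))

theorem GG_mem {wu : ℤ} {wz wd : V → ℤ}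
    (h : ∀ b : Bi w t, wu ≤ wz (v.em (b.1, false)) + wz (v.em (b.1, true))) :
    (Om.fn (GG v) : Om p (Au p) V) ∈ (fil p wu wz wd).ge 0 := by
  have := Fil.prod (F := (fil p wu wz wd).comap (algebraMap (O p (Au p) V) (Om p (Au p) V)))
    univ (t := fun _ => 0) (a := fun b : Bi w t => tx p (xu (ga v b))) fun b _ =>
      Fil.tx_mem p (by
        rw [Fil.mem_comap]
        refine Fil.mono _ (xu_fil (r := wu) ?_) (by omega)
        rw [ga, fn_bc_smul, map_mul, bc_z, bc_z, Om.fn, map_mul]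
        exact fil_smul (Fil.mul' _ (z_mem' _) (z_mem' _) (h b)) _)
  rw [sum_const_zero] at this
  exact this

/-- the signed potential -/
noncomputable def sW (v : VxD w t N La V) (i : Fin 3) : O p (ZMod p) V :=
  if t i = true then v.io i (w i).W else -v.io i (w i).W

theorem sW_mem (i : Fin 3) : sW v i ∈ (mx : Ideal (O p (ZMod p) V)) ^ 2 := by
  have := map_mx_pow (v.io i) (io_mx v i) (w i).W2
  unfold sW
  split_ifs
  exacts [this, neg_mem this]

theorem up_Eu (i : Fin 3) : up (v.io i) ((w i).Eu (t i)) = O.E (xu (sW v i)) := by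
  unfold Wall.Eu sW
  split_ifs
  · exact up_E _ (io_mx v i) (w i).W2
  · rw [← map_neg, ← up_E _ (io_mx v i) (neg_mem (w i).W2), xu, map_neg, neg_smul_neg]

theorem E_all : O.E (xu (sW v 0)) * O.E (xu (sW v 1)) * O.E (xu (sW v 2)) *
    (GG v * O.E (xu v.De) * O.E (xu v.Ps)) = up v.rho (O.E (xu v.Q)) := by
  have h1 : ∑ b, ga v b = ∑ i, ∑ x, (if t i = false ∧ (w i).kd x = none then
      v.c i x • (z (v.em (⟨i, x⟩, false)) * z (v.em (⟨i, x⟩, true))) else 0) :=
    sum_bi (w := w) (t := t) fun q => v.c q.1 q.2 • (z (v.em (q, false)) * z (v.em (q, true)))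
  have h2 : ∑ i, sW v i + ∑ b, ga v b + v.De + v.Ps = v.rho v.Q := by rw [h1]; exact v.eq
  have h3 : GG v = O.E (xu (∑ b, ga v b)) := by
    rw [xu_sum, E_sum _ _ fun b _ => xu_mem (ga_mem b), GG]
    exact prod_congr rfl fun b _ => (E_ga b).symm
  have m1 : ∑ i, sW v i ∈ (mx : Ideal (O p (ZMod p) V)) ^ 2 := sum_mem fun i _ => sW_mem i
  have m2 : ∑ b, ga v b ∈ (mx : Ideal (O p (ZMod p) V)) ^ 2 := sum_mem fun b _ => ga_mem b
  rw [up_E _ (fun q => (nm_rho v q).mx) v.hQ, ← h2, xu_add, xu_add, xu_add,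
    E_add (add_mem (add_mem (xu_mem m1) (xu_mem m2)) (xu_mem v.De2)) (xu_mem v.Ps2),
    E_add (add_mem (xu_mem m1) (xu_mem m2)) (xu_mem v.De2), E_add (xu_mem m1) (xu_mem m2), ← h3,
    xu_sum, E_sum _ _ fun i _ => xu_mem (sW_mem i), Fin.prod_univ_three]
  ring

theorem E_De {wu l : ℤ} (hl : 0 ≤ l) {wz wd : V → ℤ}
    (h : ∀ a : V → ℕ, cf a v.De ≠ 0 → l + wu ≤ ∑ i, a i * wz i) :
    (Om.fn (O.E (xu v.De)) - 1 : Om p (Au p) V) ∈ (fil p wu wz wd).ge l := by
  have := add_mem (Fil.mono _ (E_xu_sub (wd := wd) hl v.De2 h) (by omega : l ≤ 2 * l))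
    (Fil.mono _ (xu_fil (wu := wu) (wd := wd) (fn_bc_mem h)) (by omega : l ≤ l + wu - wu))
  rwa [sub_add_cancel] at this

theorem E_De' {wu : ℤ} {wz wd : V → ℤ}
    (h : ∀ a : V → ℕ, cf a v.De ≠ 0 → wu ≤ ∑ i, a i * wz i) :
    (Om.fn (O.E (xu v.De)) : Om p (Au p) V) ∈ (fil p wu wz wd).ge 0 := by
  have := add_mem (E_De (v := v) (wd := wd) le_rfl fun a ha => (zero_add wu).trans_le (h a ha))
    (Fil.one _)
  rwa [sub_add_cancel] at this

namespace Su

variable (U : Su v) {al : ∀ i, s i}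

theorem eta_w {i : Fin 3} {al : s i} (hal : (w i).kd al = none) (hG : (w i).Gh N La (t i) al)
    (hM : ∀ x : Ix (s i), (∀ y, x.2.1 y < p) →
      (w i).wW N La ((w i).ld (t i) al) ≤ (w i).wW N La x → 1 - (U.M : ℤ) ≤ (w i).jw (t i) x)
    {η : Om p (Au p) (s i)} (h : In ((w i).Lt N La (t i) al) (η - mu ((w i).ld (t i) al))) :
    U.WW.Cg (wt (2 * (U.M * La) + 1) (vq (w i) U.M N La (t i)) (fun x => U.M * fq (w i) N (t i) x)
      ((w i).ld (t i) al)) (PB (v.io i) η)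
      (PB (rn fun x => v.em (⟨i, x⟩, false)) (mu ((w i).ld (t i) al))) := by
  have h1 := cg_mu (wu := 2 * (U.M * La) + 1) (wz := U.wV) (wd := fun x => (U.M : ℤ) * v.FV x)
    (v.io i) (rn fun x => v.em (⟨i, x⟩, false)) (vz := vq (w i) U.M N La (t i))
    (vd := fun x => U.M * fq (w i) N (t i) x) ((w i).ld (t i) al)
    (fun x hx => by rw [rn_z]; exact U.cg_w0 (ld_ne hal hx))
    fun x hx => by
      rw [rn_z, ← fV_em v (ne_of_nr hx)]; exact U.cg_w1 (nm_io v (ne_of_nr hx))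
  refine Fil.Cg.trans ⟨h1.lt, ?_⟩ h1
  rw [← map_sub]
  exact PB_mem _ (U.io_w0 i) (U.io_w1 i) (Sb_mono (fun x hb hx =>
    lt_w hG hal U.M_pos (hM x hb ((w i).le_of_lt N La hx)) hb hx) h)

theorem th_w : U.WW.Cg (∑ q : Xi w t, U.M * (v.FV (v.em q.1) : ℤ)) (PB v.rho (Om.e univ))
    (PB (rn fun q : Xi w t => v.em q.1) (Om.e univ)) :=
  cg_e (F := U.WW) (PB v.rho).toRingHom (PB (rn fun q : Xi w t => v.em q.1)).toRingHom univ
    fun q _ => by simpa [PB_dz] using U.cg_w1 (nm_rho v q)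

theorem th_j : PB v.rho (Om.e univ) ∈ U.JJ.ge 0 := by
  have := (cg_e (F := U.JJ) (PB v.rho).toRingHom (PB v.rho).toRingHom (wd := fun _ => 0) univ
    fun q _ => Fil.Cg.refl (by
      simpa [PB_dz] using d_bc_mem0 (wu := 1) U.jV_nonneg (v.rho (z q)))).lt
  simpa using this

theorem jV_y (b : Bi w t) : U.jV (v.em (b.1, false)) = 1 := by
  rw [jV, U.pr_em (Vx.ok_xi (q := (b.1, false)) b.2), if_pos ⟨b.2, rfl⟩]

theorem jV_m (b : Bi w t) : U.jV (v.em (b.1, true)) = 0 := by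
  rw [jV, U.pr_em (Vx.ok_xi (q := (b.1, true)) b.2), if_neg (by simp)]

theorem wV_y (b : Bi w t) : U.wV (v.em (b.1, false)) = U.M * La + 1 := by
  rw [wV, U.jV_y, U.pr_em (Vx.ok_xi (q := (b.1, false)) b.2), if_pos b.2.2]

theorem wV_m (b : Bi w t) : U.wV (v.em (b.1, true)) = U.M * La := by
  rw [wV, U.jV_m, U.pr_em (Vx.ok_xi (q := (b.1, true)) b.2), if_pos b.2.2, add_zero]

theorem tgt_w (hal : ∀ i, (w i).kd (al i) = none) :
    wt (2 * (U.M * La) + 1) U.wV (fun x => (U.M : ℤ) * v.FV x)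
        (Jx (p := p) w t, Om.top p V, univ) =
      ∑ i, wt (2 * (U.M * La) + 1) (vq (w i) U.M N La (t i)) (fun x => U.M * fq (w i) N (t i) x)
        ((w i).ld (t i) (al i)) + ∑ q : Xi w t, U.M * (v.FV (v.em q.1) : ℤ) + (U.M * La - 1) := by
  have e := U.sum_eq fun x => ((p - 1 : ℕ) : ℤ) * U.wV x + U.M * v.FV x
  have e1 : ∀ i, ∑ x ∈ (w i).nr (t i), (((p - 1 : ℕ) : ℤ) * U.wV (v.em (⟨i, x⟩, false)) +
      U.M * v.FV (v.em (⟨i, x⟩, false))) = wt (2 * (U.M * La) + 1) (vq (w i) U.M N La (t i))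
        (fun x => U.M * fq (w i) N (t i) x) ((w i).ld (t i) (al i)) + U.M * La := fun i => by
    rw [ld_w (hal i), sub_add_cancel]
    exact sum_congr rfl fun x hx => by rw [fV_em v (ne_of_nr hx), U.wV_em (ne_of_nr hx)]
  have e2 : ∑ q : Xi w t, U.wV (v.em q.1) = Fintype.card (Bi w t) * (2 * (U.M * La) + 1) := by
    rw [sum_xi, sum_congr rfl fun b _ => (by
      change U.wV (v.em (b.1, false)) + U.wV (v.em (b.1, true)) = 2 * (U.M * La) + 1
      rw [U.wV_y, U.wV_m]; ring), sum_const, card_univ, nsmul_eq_mul]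
  simp only [e1, sum_add_distrib, ← mul_sum, e2, sum_const, card_univ, Fintype.card_fin] at e
  simp only [wt, Om.top, Jx, ← mul_sum] at e ⊢
  push_cast at e ⊢
  linear_combination e

theorem tgt_j : wt 1 U.jV 0 (Jx (p := p) w t, Om.top p V, univ) < 0 := by
  have e := U.sum_eq U.jV
  have e1 : ∀ i, ∑ x ∈ (w i).nr (t i), U.jV (v.em (⟨i, x⟩, false)) = 0 := fun i =>
    sum_eq_zero fun x hx => by rw [U.jV_em (ne_of_nr hx), jq_nr hx]
  have e2 : ∑ q : Xi w t, U.jV (v.em q.1) = Fintype.card (Bi w t) := by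
    rw [sum_xi, sum_congr rfl fun b _ => (by
      change U.jV (v.em (b.1, false)) + U.jV (v.em (b.1, true)) = 1
      rw [U.jV_y, U.jV_m]; ring), sum_const, card_univ, nsmul_eq_mul, mul_one]
  simp only [e1, e2, sum_const_zero, zero_add] at e
  simp only [wt, Om.top, Jx, ← mul_sum, e, Pi.zero_apply, sum_const_zero]
  linarith

theorem a0_em {i : Fin 3} {x : s i} (h : (w i).kd x ≠ some (!t i)) :
    U.a0 al (v.em (⟨i, x⟩, false)) = ((w i).ld (t i) (al i)).2.1 x := by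
  rw [a0, U.pr_em (ok_ne h), if_pos rfl]

theorem a0_m (b : Bi w t) : U.a0 al (v.em (b.1, true)) = 0 := by
  rw [a0, U.pr_em (Vx.ok_xi (q := (b.1, true)) b.2), if_neg (by simp)]

theorem a0_le (x : V) : U.a0 al x ≤ p - 1 := by
  have hp := (Fact.out : p.Prime).two_le
  simp only [a0, Wall.ld]
  split_ifs <;> omega

/-! ### the count with the weights of the slots -/

/-- the own `y` of an `L` slot -/
noncomputable def yo (v : VxD w t N La V) (i : Fin 3) (x : V) : ℤ :=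
  if t i = false then yi w v.em i x else 0

theorem yo_nonneg (i : Fin 3) (x : V) : 0 ≤ yo v i x := by unfold yo; split_ifs <;> simp

theorem yo_le (i : Fin 3) (x : V) : yo v i x ≤ U.jV x := by
  have := U.jV_nonneg x
  unfold yo yi
  split_ifs with h1 h2
  · obtain ⟨y, hy, rfl⟩ := h2
    exact (U.jV_y ⟨⟨i, y⟩, h1, hy⟩).ge
  · simpa using this
  · exact this

/-- the filtration of slot `i` -/
noncomputable abbrev CC (v : VxD w t N La V) (i : Fin 3) : Fil (Om p (Au p) V) :=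
  fil p (2 * La) (fun x => v.om i x + 2 * La * yo v i x) fun x => v.om i x

/-- pure weight plus second weight -/
noncomputable abbrev NN : Fil (Om p (Au p) V) :=
  fil p (2 * La) (fun x => v.FV x + 2 * La * U.jV x) fun x => v.FV x

theorem io_o (i : Fin 3) (x : s i) : v.io i (z x) ∈ Ge (v.om i) (fq (w i) N (t i) x).toNat := by
  by_cases h : (w i).kd x = some (!t i)
  · rw [fq, fi, if_pos h]
    exact Ge_anti (by omega) (hi_iff.1 (v.far i x h))
  · rw [fq, fi, if_neg h, ← sub_add_cancel (v.io i (z x)) (z (v.em (⟨i, x⟩, false)))]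
    refine add_mem (Ge_anti (by omega) (hi_iff.1 (v.near i x h))) (Ge_anti ?_ (z_mem_Ge _))
    rw [v.om_em i x (ok_ne h)]
    omega

theorem io_o' (i : Fin 3) (x : s i) (a : V → ℕ) (ha : cf a (v.io i (z x)) ≠ 0) :
    fq (w i) N (t i) x ≤ ∑ y, (a y : ℤ) * v.om i y := by
  have h1 : (((fq (w i) N (t i) x).toNat : ℕ) : ℤ) ≤ _ := Nat.cast_le.2 (io_o i x a ha)
  push_cast at h1
  exact (Int.self_le_toNat _).trans h1

theorem io_c0 (i : Fin 3) (x : s i) : (Om.fn (bc (Au p) (v.io i (z x))) : Om p (Au p) V) ∈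
    (CC v i).ge (fq (w i) N (t i) x + 2 * La * jq (w i) (t i) x) := by
  refine fn_bc_mem fun a ha => ?_
  have h1 := io_o' i x a ha
  have h2 : jq (w i) (t i) x ≤ ∑ y, (a y : ℤ) * yo v i y := by
    unfold jq
    split_ifs with h
    · have h3 : v.io i (z x) ∈ Ge (yi w v.em i) 1 := by
        rw [← sub_add_cancel (v.io i (z x)) (z (v.em (⟨i, x⟩, false)))]
        refine add_mem (v.hyL i x h.1 h.2) (Ge_anti ?_ (z_mem_Ge _))
        rw [yi, if_pos ⟨x, h.2, rfl⟩]
      simp only [yo, if_pos h.1]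
      exact_mod_cast h3 a ha
    · exact sum_nonneg fun y _ => mul_nonneg (by omega) (yo_nonneg i y)
  simp only [mul_add, sum_add_distrib, mul_left_comm _ (2 * (La : ℤ)), ← mul_sum]
  nlinarith [Int.natCast_nonneg La]

theorem io_c1 (i : Fin 3) (x : s i) : (Om.d (Om.fn (bc (Au p) (v.io i (z x)))) : Om p (Au p) V) ∈
    (CC v i).ge (fq (w i) N (t i) x) :=
  fil_mono (wu := 2 * La) (wz := fun x => v.om i x) (wd := fun x => v.om i x)
    (fun y _ hy => hy.trans (by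
      have := sum_nonneg (s := univ) fun x _ => mul_nonneg (by omega : (0 : ℤ) ≤ y.2.1 x)
        (mul_nonneg (by omega : (0 : ℤ) ≤ 2 * La) (yo_nonneg (v := v) i x))
      simp only [wt, mul_add, sum_add_distrib]
      omega)) (d_mem (fun _ => le_rfl) (fn_bc_mem (io_o' i x)))

include U in
theorem eta_c {i : Fin 3} {al : s i} (hal : (w i).kd al = none)
    {η : Om p (Au p) (s i)} (h : In ((w i).Lt N La (t i) al) (η - mu ((w i).ld (t i) al))) :
    PB (v.io i) η ∈ (CC v i).ge (tp (w i) N (t i) - La) := by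
  have hp := (Fact.out : p.Prime).two_le
  refine PB_mem _ (io_c0 i) (io_c1 i) ?_
  rw [← sub_add_cancel η (mu ((w i).ld (t i) al))]
  refine add_mem (Sb_mono (fun x hb hx => lt_n (U.le i) hal hb ((w i).le_of_lt N La hx)) h)
    (mu_mem (lt_n (U.le i) hal (fun y => ?_) le_rfl))
  simp only [Wall.ld]
  split_ifs <;> omega

theorem tp_eq (i : Fin 3) :
    tp (w i) N (t i) = ∑ x ∈ (w i).nr (t i), (p : ℤ) * v.FV (v.em (⟨i, x⟩, false)) := by
  have hp := (Fact.out : p.Prime).one_le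
  rw [tp, h0_w]
  refine sum_congr rfl fun x hx => ?_
  rw [fV_em v (ne_of_nr hx), Nat.cast_sub hp]
  push_cast
  ring

include U in
theorem cross (i : Fin 3) (c : V → ℤ) (h0 : ∀ x, 0 ≤ c x) (h1 : ∀ x, c x ≤ p) :
    3 * ∑ x, c x * v.om i x ≤
      ∑ x, c x * v.FV x + 2 * tp (w i) N (t i) + 2 * (p * ∑ x ∈ v.Bad, v.FV x : ℕ) := by
  classical
  let g : V → ℤ := fun x => if (U.pr x).1.1 = i ∧ ¬ xi w t (U.pr x) then p * v.FV x else 0
  have e1 : ∑ x, g x = tp (w i) N (t i) := by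
    rw [U.sum_eq g, tp_eq (v := v) i, sum_eq_zero (s := univ) (f := fun q : Xi w t => g (v.em q.1)),
      add_zero, sum_eq_single i]
    · refine sum_congr rfl fun x hx => ?_
      simp only [g, U.pr_em (ok_ne (ne_of_nr hx))]
      exact if_pos ⟨trivial, not_xi hx _⟩
    · refine fun j _ hj => sum_eq_zero fun x hx => ?_
      simp only [g, U.pr_em (ok_ne (ne_of_nr hx))]
      exact if_neg fun h => hj h.1
    · simp
    · intro q _
      simp only [g, U.pr_em (Vx.ok_xi q.2)]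
      exact if_neg fun h => h.2 q.2
  have e2 : ((p * ∑ x ∈ v.Bad, v.FV x : ℕ) : ℤ) =
      ∑ x, if x ∈ v.Bad then (p : ℤ) * v.FV x else 0 := by
    rw [sum_ite_mem, univ_inter, ← mul_sum]
    push_cast
    rfl
  rw [← e1, e2, mul_sum, mul_sum, mul_sum, ← sum_add_distrib, ← sum_add_distrib]
  refine sum_le_sum fun x _ => ?_
  have a0 := h0 x
  have a1 := h1 x
  have a2 : (v.om i x : ℤ) ≤ v.FV x := by exact_mod_cast v.om_le i x
  have a3 := Int.natCast_nonneg (v.FV x)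
  have a4 : c x * v.om i x ≤ c x * v.FV x := mul_le_mul_of_nonneg_left a2 a0
  have a5 : c x * v.FV x ≤ p * v.FV x := mul_le_mul_of_nonneg_right a1 a3
  have a6 : 0 ≤ c x * v.FV x := mul_nonneg a0 a3
  simp only [g]
  split_ifs with b1 b2 b3
  · linarith
  · linarith
  · linarith
  · have b4 : ¬ xi w t (U.pr x) := fun h => b3 (U.em_pr x ▸ v.bad ⟨_, h⟩)
    have b5 := v.cheap i _ (U.ok x) (fun h => b1 ⟨h, b4⟩) (by rwa [U.em_pr])
    rw [U.em_pr] at b5
    have b6 : 3 * (v.om i x : ℤ) ≤ v.FV x := by exact_mod_cast b5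
    nlinarith

theorem split {i : Fin 3} {ω : Om p (Au p) V} (h : ω ∈ (CC v i).ge (tp (w i) N (t i) - La)) :
    Lg U.NN U.JJ (2 * La - 2 * (p * ∑ x ∈ v.Bad, v.FV x : ℕ)) (tp (w i) N (t i) - La) ω := by
  classical
  refine Sb_ind (Q := fun a => Lg _ _ _ _ a) (Lg.of' (zero_mem _)) (fun _ _ => Lg.add)
    (fun c x hx hb => ?_) h
  have e : ∀ f : V → ℤ, ∑ y, (x.2.1 y + if y ∈ x.2.2 then 1 else 0 : ℤ) * f y =
      ∑ y, x.2.1 y * f y + ∑ y ∈ x.2.2, f y := fun f => by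
    simp only [add_mul, sum_add_distrib, ite_mul, one_mul, zero_mul, sum_ite_mem, univ_inter]
  have h1 := U.cross i (fun y => x.2.1 y + if y ∈ x.2.2 then 1 else 0)
    (fun y => by split_ifs <;> omega) fun y => by have := hb y; split_ifs <;> omega
  rw [e, e] at h1
  have h2 : ∑ y, (x.2.1 y : ℤ) * v.om i y ≤ ∑ y, (x.2.1 y : ℤ) * v.FV y :=
    sum_le_sum fun y _ => mul_le_mul_of_nonneg_left (by exact_mod_cast v.om_le i y) (by omega)
  have h3 : ∑ y ∈ x.2.2, (v.om i y : ℤ) ≤ ∑ y ∈ x.2.2, (v.FV y : ℤ) :=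
    sum_le_sum fun y _ => by exact_mod_cast v.om_le i y
  have h4 : ∑ y, (x.2.1 y : ℤ) * yo v i y ≤ ∑ y, (x.2.1 y : ℤ) * U.jV y :=
    sum_le_sum fun y _ => mul_le_mul_of_nonneg_left (U.yo_le i y) (by omega)
  have h5 := mul_le_mul_of_nonneg_left h4 (by omega : (0 : ℤ) ≤ 2 * La)
  simp only [wt, mul_add, sum_add_distrib, mul_left_comm _ (2 * (La : ℤ)), ← mul_sum] at hx
  by_cases hJ : 0 ≤ x.1 + ∑ y, (x.2.1 y : ℤ) * yo v i y
  · refine Lg.of (fil_smul (mu_mem ?_) c) (fil_smul (mu_mem ?_) c)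
    · simp only [wt, mul_add, sum_add_distrib, mul_left_comm _ (2 * (La : ℤ)), ← mul_sum]
      linarith
    · simp only [wt, Pi.zero_apply, sum_const_zero]
      linarith
  · refine Lg.of' (fil_smul (mu_mem ?_) c)
    have h6 := mul_le_mul_of_nonneg_left
      (by omega : x.1 + ∑ y, (x.2.1 y : ℤ) * yo v i y ≤ -1) (by omega : (0 : ℤ) ≤ 2 * La)
    simp only [wt, mul_add, sum_add_distrib, mul_left_comm _ (2 * (La : ℤ)), ← mul_sum]
    linarith

theorem th_n : PB v.rho (Om.e univ) ∈ U.NN.ge 0 := by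
  have hz : ∀ x, (0 : ℤ) ≤ v.FV x + 2 * La * U.jV x := fun x =>
    add_nonneg (by omega) (mul_nonneg (by omega) (U.jV_nonneg x))
  have := (cg_e (F := U.NN) (PB v.rho).toRingHom (PB v.rho).toRingHom (wd := fun _ => 0) univ
    fun q _ => Fil.Cg.refl (fil_mono (wu := 2 * La) (wz := fun x => (v.FV x : ℤ) + 2 * La * U.jV x)
      (wd := 0) (fun x _ hx => hx.trans (by
      have := sum_nonneg (s := x.2.2) fun y _ => Int.natCast_nonneg (v.FV y)
      simp only [wt, Pi.zero_apply, sum_const_zero]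
      omega)) (by simpa [PB_dz] using d_bc_mem0 (wu := 2 * La) hz (v.rho (z q))))).lt
  simpa using this

theorem tgt_n : wt (2 * La) (fun x => v.FV x + 2 * La * U.jV x) (fun x => v.FV x)
    (Jx (p := p) w t, Om.top p V, univ) ≤
      ∑ i, tp (w i) N (t i) + (p * ∑ x ∈ v.Bad, v.FV x : ℕ) - 2 * La := by
  classical
  have hp := (Fact.out : p.Prime).one_le
  have h1 := U.tgt_j
  have e := U.sum_eq fun x => (p : ℤ) * v.FV x
  simp only [← tp_eq (v := v)] at e
  have h2 : ∑ q : Xi w t, v.FV (v.em q.1) ≤ ∑ x ∈ v.Bad, v.FV x := by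
    rw [← sum_image (s := univ) (g := fun q : Xi w t => v.em q.1) (f := v.FV) fun q _ q' _ h =>
      Subtype.ext (v.inj (Vx.ok_xi q.2) (Vx.ok_xi q'.2) h)]
    refine sum_le_sum_of_subset fun x hx => ?_
    obtain ⟨q, -, rfl⟩ := mem_image.1 hx
    exact v.bad q
  have h3 : (p : ℤ) * ∑ q : Xi w t, (v.FV (v.em q.1) : ℤ) ≤ (p * ∑ x ∈ v.Bad, v.FV x : ℕ) := by
    exact_mod_cast Nat.mul_le_mul_left p h2
  simp only [wt, Om.top, Pi.zero_apply, sum_const_zero, one_mul, add_zero, mul_add,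
    sum_add_distrib, mul_left_comm _ (2 * (La : ℤ)), ← mul_sum] at h1 e ⊢
  have h4 := mul_le_mul_of_nonneg_left (Int.le_sub_one_of_lt h1) (by omega : (0 : ℤ) ≤ 2 * La)
  rw [Nat.cast_sub hp] at h4 ⊢
  push_cast at h3 h4 ⊢
  linarith

theorem De_j (a : V → ℕ) (ha : cf a v.De ≠ 0) : 1 ≤ ∑ x, a x * U.jV x := by
  have h1 : ((1 : ℕ) : ℤ) ≤ _ := Nat.cast_le.2 (v.hDeL a ha)
  push_cast at h1
  refine h1.trans (sum_le_sum fun x _ => mul_le_mul_of_nonneg_left ?_ (by omega))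
  have := U.jV_nonneg x
  unfold yL
  split_ifs with h2
  · obtain ⟨i, y, h3, hy, rfl⟩ := h2
    exact (U.jV_y ⟨⟨i, y⟩, h3, hy⟩).ge
  · simpa using this

theorem De_n (a : V → ℕ) (ha : cf a v.De ≠ 0) :
    2 * (La : ℤ) ≤ ∑ x, a x * (v.FV x + 2 * La * U.jV x) := by
  have h1 := mul_le_mul_of_nonneg_left (U.De_j a ha) (by omega : (0 : ℤ) ≤ 2 * La)
  have h2 : (0 : ℤ) ≤ ∑ x, (a x : ℤ) * v.FV x := sum_nonneg fun x _ => by positivity
  simp only [mul_add, sum_add_distrib, mul_left_comm _ (2 * (La : ℤ)), ← mul_sum]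
  linarith

theorem De_w : U.WW.Cg 0 (Om.fn (GG v) * Om.fn (O.E (xu v.De))) (Om.fn (GG v)) := by
  have h1 : U.WW.Cg 0 (Om.fn (O.E (xu v.De))) 1 := ⟨Fil.one _, E_De (by omega) fun a ha => by
    have h2 := U.ge_w (hi_iff.1 v.hDe) a ha
    have h3 : (2 : ℤ) ≤ U.M := by exact_mod_cast U.two
    push_cast at h2
    linarith⟩
  have := (Fil.Cg.refl (F := U.WW) (GG_mem (v := v) fun b => by
    rw [U.wV_y, U.wV_m]; omega)).mul h1
  rwa [add_zero, mul_one] at this

include U in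
theorem term_one (hal : ∀ i, (w i).kd (al i) = none) {η : ∀ i, Om p (Au p) (s i)}
    (h : ∀ i, In ((w i).Lt N La (t i) (al i)) (η i - mu ((w i).ld (t i) (al i)))) :
    cu (Jx (p := p) w t, Om.top p V, univ) (PB (v.io 0) (η 0) * PB (v.io 1) (η 1) *
      PB (v.io 2) (η 2) * PB v.rho (Om.e univ) *
      (Om.fn (GG v) * Om.fn (O.E (xu v.De)))) = 0 := by
  have hs : 4 * ((p * ∑ x ∈ v.Bad, v.FV x : ℕ) : ℤ) < La := by exact_mod_cast v.small
  have hg : (0 : ℤ) ≤ 2 * La - 2 * (p * ∑ x ∈ v.Bad, v.FV x : ℕ) := by omega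
  have h1 := fun i => U.split (U.eta_c (hal i) (h i))
  refine (((((h1 0).mul hg (h1 1)).mul hg (h1 2)).mul hg (Lg.of U.th_n U.th_j)).mul hg
    (Lg.of (s := 0) (Fil.mul' _ (GG_mem fun b => ?_) (E_De' U.De_n) (by omega))
      (Fil.mul' _ (GG_mem fun b => ?_) (E_De' U.De_j) (by omega)))).eq_zero _
    (fun a ha => cu_eq_zero ?_ ha) fun a ha => cu_eq_zero U.tgt_j ha
  · rw [U.jV_y, U.jV_m]; omega
  · rw [U.jV_y, U.jV_m]; omega
  · have := U.tgt_n
    rw [Fin.sum_univ_three] at this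
    omega

end Su

theorem r_em {al : ∀ i, s i} (hal : ∀ i, (w i).kd (al i) = none) {i : Fin 3} {x : s i} {b : Bool}
    (h : Ok w t (⟨i, x⟩, b)) :
    (∑ j, Pi.single (v.em (⟨j, al j⟩, !t j)) 1 : V → ℕ) (v.em (⟨i, x⟩, b)) =
      if x = al i ∧ b = !t i then 1 else 0 := by
  rw [Finset.sum_apply, sum_eq_single i]
  · rw [Pi.single_apply]
    refine if_congr ⟨fun h' => ?_, by rintro ⟨rfl, rfl⟩; rfl⟩ rfl rfl
    simpa using v.inj h (ok_n hal i) h'
  · intro j _ hj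
    refine Pi.single_eq_of_ne (fun h' => hj ?_) _
    exact (congrArg (fun q => q.1.1) (v.inj h (ok_n hal j) h')).symm
  · simp

theorem Su.gauss (U : Su v) {al : ∀ i, s i} (hal : ∀ i, (w i).kd (al i) = none) :
    ∃ c : ZMod p, c ≠ 0 ∧ (cf (Om.top p V - U.a0 al) (GG v * bc (Au p) v.Ps)).coeff
      (Jx (p := p) w t - (∑ i, ((w i).ld (t i) (al i)).1 - 1)) = c * v.cub al := by
  have hp := (Fact.out : p.Prime).two_le
  have oy : ∀ b : Bi w t, Ok w t (b.1, false) := fun b => Vx.ok_xi (q := (b.1, false)) b.2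
  have om : ∀ b : Bi w t, Ok w t (b.1, true) := fun b => Vx.ok_xi (q := (b.1, true)) b.2
  have ky : ∀ b : Bi w t, (w b.1.1).kd b.1.2 ≠ some (!t b.1.1) := fun b => by rw [b.2.2]; simp
  have hr : ∀ x, (Om.top p V - U.a0 al) x < p := fun x => by
    simp only [Pi.sub_apply, Om.top]; omega
  have := cf_gauss (fun b : Bi w t => v.em (b.1, false)) (fun b : Bi w t => v.em (b.1, true))
    (fun b b' h => Subtype.ext (congrArg Prod.fst (v.inj (oy b) (oy b') h)))
    (fun b b' h => Subtype.ext (congrArg Prod.fst (v.inj (om b) (om b') h)))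
    (fun b b' h => by simpa using congrArg Prod.snd (v.inj (oy b) (om b') h))
    (fun b => v.c b.1.1 b.1.2) (Om.top p V - U.a0 al)
    (∑ j, Pi.single (v.em (⟨j, al j⟩, !t j)) 1) hr
    (fun b => by rw [r_em hal (oy b), if_neg (by simp [b.2.1])])
    (fun b => by
      have hn : b.1.2 ∉ (w b.1.1).nr (t b.1.1) := fun h => not_xi h true b.2
      simp only [Pi.sub_apply, Om.top]
      rw [r_em hal (om b), U.a0_m, U.a0_em (ky b)]
      simp only [Wall.ld, hn]
      by_cases h : b.1.2 = al b.1.1 <;> simp [h, b.2.1]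
      omega)
    (fun x h1 h2 => by
      have h3 := U.em_pr x
      have h4 := U.ok x
      generalize U.pr x = q at h3 h4
      obtain ⟨⟨i, y⟩, b⟩ := q
      subst h3
      rcases ok_cases h4 with h5 | ⟨h5, h6⟩
      · cases b
        exacts [absurd rfl (h1 ⟨_, h5⟩), absurd rfl (h2 ⟨_, h5⟩)]
      simp only at h5 h6
      subst h5
      simp only [Pi.sub_apply, Om.top]
      rw [r_em hal h4, U.a0_em (ne_of_nr h6)]
      simp only [Wall.ld, h6]
      by_cases h : y = al i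
      · subst h
        have : t i = true := by simpa [mem_nr, hal i] using h6
        simp [this]
        omega
      · simp [h]) v.Ps
  have hne : ∀ i j : Fin 3, i ≠ j → v.em (⟨i, al i⟩, !t i) ≠ v.em (⟨j, al j⟩, !t j) :=
    fun i j hij h => hij (congrArg (fun q => q.1.1) (v.inj (ok_n hal i) (ok_n hal j) h))
  rw [Fin.sum_univ_three, ← cub_eq (hne 0 1 (by simp)) (hne 0 2 (by simp)) (hne 1 2 (by simp))]
    at this
  refine ⟨_, prod_ne_zero_iff.2 fun b _ => mul_ne_zero (ic_ne (hr _))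
    (pow_ne_zero _ (neg_ne_zero.2 (v.hc _ _ b.2.1 b.2.2))), Eq.trans ?_ this⟩
  congr 1
  have e1 : ∀ b : Bi w t, (((Om.top p V - U.a0 al) (v.em (b.1, false)) : ℕ) : ℤ) =
      ((p - 1 : ℕ) : ℤ) - ((w b.1.1).ld (t b.1.1) (al b.1.1)).2.1 b.1.2 := fun b => by
    rw [← U.a0_em (ky b)]
    exact Nat.cast_sub (U.a0_le _)
  have e2 := sum_bi (w := w) (t := t) fun q => (((w q.1).ld (t q.1) (al q.1)).2.1 q.2 : ℤ)
  have e3 := sum_eq_zero (s := univ) fun i _ => ld_j (w := w i) (b := t i) (hal i)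
  simp only [Wall.jw, sum_add_distrib] at e3
  simp only [e1, sum_sub_distrib, e2, sum_const, card_univ, nsmul_eq_mul, Jx]
  linear_combination -e3

theorem Su.val (U : Su v) {al : ∀ i, s i} (hal : ∀ i, (w i).kd (al i) = none)
    (h : cu (Jx (p := p) w t, Om.top p V, univ)
      (PB (rn fun x => v.em (⟨0, x⟩, false)) (mu ((w 0).ld (t 0) (al 0))) *
      PB (rn fun x => v.em (⟨1, x⟩, false)) (mu ((w 1).ld (t 1) (al 1))) *
      PB (rn fun x => v.em (⟨2, x⟩, false)) (mu ((w 2).ld (t 2) (al 2))) *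
      PB (rn fun q : Xi w t => v.em q.1) (Om.e univ) *
      (Om.fn (GG v) * Om.fn (xu v.Ps))) = 0) : v.cub al = 0 := by
  obtain ⟨ε, h1, h2⟩ := U.sq_lead
  obtain ⟨c, hc, h3⟩ := U.gauss hal
  have h4 := U.prod_lead hal
  rw [Fin.prod_univ_three] at h4
  rw [PB_rn_mu, PB_rn_mu, PB_rn_mu, ← map_mul, Om.mul_fn, smul_mul_smul_comm, smul_mul_smul_comm,
    smul_mul_assoc, smul_smul] at h
  erw [h2] at h
  rw [smul_comm, map_zsmul, cu_top, smul_mul_smul_comm, smul_mul_smul_comm, h4, xu,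
    mul_smul_comm _ (GG v), smul_mul_smul_comm, map_smul, mul_comm _ (zm _),
    gc_cf_zm_mul (Om.top p V) _ (fun _ => Nat.sub_lt (Fact.out : p.Prime).pos one_pos),
    if_pos (show ∀ x, U.a0 al x ≤ Om.top p V x from U.a0_le),
    smul_eq_mul, neg_mul, neg_mul, ← T_add, ← T_add, ← T_add, AddMonoidAlgebra.coeff_neg,
    Finsupp.neg_apply, coeff_T_mul] at h
  rw [Fin.sum_univ_three, sub_eq_neg_add _ (1 : ℤ)] at h3
  rw [h3, zsmul_eq_mul] at h
  have h5 : (ε : ZMod p) * ε = 1 := by exact_mod_cast congrArg (Int.cast : ℤ → ZMod p) h1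
  refine (mul_eq_zero.1 (?_ : c * v.cub al = 0)).resolve_left hc
  linear_combination (-ε) * h - (c * v.cub al) * h5

theorem vertex_onto (v : VxD w t N La V) (onto : ∀ x : V, ∃ q, Ok w t q ∧ v.em q = x)
    {al : ∀ i, s i} (hal : ∀ i, (w i).kd (al i) = none) (hG : ∀ i, (w i).Gh N La (t i) (al i))
    (hT : ∀ i, (w i).Test N La (t i) (al i)) : v.cub al = 0 := by
  choose pr ok em_pr using onto
  have hLa : 1 ≤ La := ((hG 0).pos (al 0)).trans_le ((hG 0).le _ (hal 0))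
  choose C hC using fun i => exists_M (w i) N hLa
  let U : Su v := ⟨pr, ok, em_pr, fun i => (hG i).pos, fun i => (hG i).le, ∑ i, C i + 2, by omega⟩
  have hM : ∀ i, (C i : ℤ) + 2 ≤ U.M := fun i => by
    have := single_le_sum (f := C) (fun _ _ => Nat.zero_le _) (mem_univ i)
    exact_mod_cast Nat.add_le_add_right this 2
  have h2 : (2 : ℤ) ≤ U.M * La := by
    have : (1 : ℤ) ≤ La := by exact_mod_cast hLa
    nlinarith [hM 0, Int.natCast_nonneg (C 0)]
  choose ze h cl hh hη using hT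
  have h0 := U.lhs (a := fun i => Om.d (ze i) + h i) (fun i => ⟨cl i, ze i, rfl⟩) hh
  have ps : ∀ a, cf a v.Ps ≠ 0 → 3 * ((U.M : ℤ) * La) ≤ ∑ x, a x * U.wV x := fun a ha =>
    le_trans (by push_cast; linarith) (U.ge_w v.hPs a ha)
  have h1 := rhs_abs U.WW (cu (Jx (p := p) w t, Om.top p V, univ)) (l := U.M * La - 1)
    (η := fun i => PB (v.io i) _)
    (G := Om.fn (GG v) * Om.fn (O.E (xu v.De))) (E := Om.fn (O.E (xu v.Ps))) (ψ := Om.fn (xu v.Ps))
    (fun a ha => cu_eq_zero (by rw [U.tgt_w hal]; exact lt_add_one _) ha) (U.term_one hal hη)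
    (fun i => U.eta_w (hal i) (hG i) (fun x hx hx' =>
      le_trans (by have := hM i; omega) (hC i _ _ x hx hx')) (hη i))
    U.De_w U.th_w
    (Fil.mono _ (xu_fil (fn_bc_mem ps)) (by omega))
    (Fil.mono _ (E_xu_sub (l := U.M * La - 1) (by omega) v.Ps2 fun a ha =>
      le_trans (by omega) (ps a ha)) (by omega)) (by rw [Fin.sum_univ_three])
  refine U.val hal (h1.symm.trans (Eq.trans ?_ h0))
  congr 1
  simp only [PB_smul, up_Eu]
  rw [← map_mul, ← map_mul, Om.mul_fn, smul_mul_smul_comm, smul_mul_smul_comm, smul_mul_assoc,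
    smul_smul, mul_comm (GG v * _ * _), E_all, mul_smul_comm]
  rfl

theorem vertexD_holds : VertexD := by
  intro p _ Γ _ δ s _ _ w t N La V _ v al hal hG hT
  classical
  let x0 : {x // v.Us x} := ⟨_, _, ok_y (hal 0), rfl⟩
  rw [← v.red_cub x0 hal]
  exact vertex_onto (v.red x0) (v.red_onto x0) hal hG hT

theorem vertexH_holds : VertexH := vertexH_of vertexD_holds

theorem coreD_holds : CoreD := coreD_of vertexD_holds

theorem coreH_holds : CoreH := coreH_of vertexH_holds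

end N255.Vh
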