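import Crest.Agent.N255.Vh.Wg

/-!
# Row 255 (helper76): vertex count with one weight per slot (adapted from helper7's `Vx/*`)
-/

set_option autoImplicit false
set_option linter.unusedSectionVars false

namespace N255.Vh

open Finset N255.Dr N255.Dr.O N255.Core N255.Vx LaurentPolynomial

variable {p : ℕ} [Fact p.Prime] {Γ : Type} [AddCommGroup Γ] {δ : Γ} {s : Fin 3 → Type}
  [∀ i, Fintype (s i)] [∀ i, DecidableEq (s i)] {w : ∀ i, Wall p Γ δ (s i)} {t : Fin 3 → Bool}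
  {V : Type} [Fintype V] [DecidableEq V] {N La : ℕ}

/-- a vertex with an inverse of the naming map -/
structure Su (v : VxD w t N La V) where
  pr : V → (Σ i, s i) × Bool
  ok : ∀ x, Ok w t (pr x)
  em_pr : ∀ x, v.em (pr x) = x
  pos : ∀ i x, 0 < N + (w i).F x
  le : ∀ i x, (w i).kd x = none → N + (w i).F x ≤ La
  M : ℕ
  two : 2 ≤ M

theorem hi_le {F F' : V → ℕ} (h : ∀ x, F x ≤ F' x) {n : ℕ} {f : O p (ZMod p) V} (hf : Hi F n f) :
    Hi F' n f := fun a ha =>
  (hf a ha).trans_le (sum_le_sum fun x _ => Nat.mul_le_mul_left _ (h x))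

namespace Su

variable {v : VxD w t N La V} (U : Su v)

theorem pr_em {q : (Σ i, s i) × Bool} (h : Ok w t q) : U.pr (v.em q) = q :=
  v.inj (U.ok _) h (U.em_pr _)

theorem M_pos : 0 < U.M := by have := U.two; omega

/-- the exponent weight of the `y` of the `L` slots -/
def jV (x : V) : ℤ := if xi w t (U.pr x) ∧ (U.pr x).2 = false then 1 else 0

/-- the main weight -/
def wV (x : V) : ℤ :=
  if (w (U.pr x).1.1).kd (U.pr x).1.2 = none then U.M * La + U.jV x else U.M * v.FV x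

theorem jV_nonneg (x : V) : 0 ≤ U.jV x := by unfold jV; split_ifs <;> simp

theorem FV_le {x : V} (h : (w (U.pr x).1.1).kd (U.pr x).1.2 = none) : v.FV x ≤ La := by
  have h1 := U.ok x
  have h2 := U.em_pr x
  generalize U.pr x = q at *
  obtain ⟨⟨i, y⟩, _ | _⟩ := q
  · rw [← h2, v.hF i y h1]; exact U.le i y h
  · rw [← h2]; exact (v.hm i y h1).2

theorem fV_le (x : V) : (U.M : ℤ) * v.FV x ≤ U.wV x := by
  have h3 := U.jV_nonneg x
  unfold wV
  split_ifs with h
  · have : (v.FV x : ℤ) ≤ La := by exact_mod_cast U.FV_le h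
    nlinarith [Int.natCast_nonneg U.M]
  · exact le_rfl

theorem vw_le (x : V) : (U.M : ℤ) * vw w t La v.em v.FV x ≤ U.wV x := by
  unfold vw
  split_ifs with h
  · exact U.fV_le x
  · have h3 := U.jV_nonneg x
    rw [wV, if_pos]
    · omega
    rcases ok_cases (U.ok x) with h4 | ⟨h4, h5⟩
    · exact h4.2
    rcases mem_nr.1 h5 with h5 | h5
    · exact absurd ⟨_, _, h5, by rw [← h4]; exact (U.em_pr x).symm⟩ h
    · exact h5.2

theorem ge_w {n : ℕ} {f : O p (ZMod p) V} (h : f ∈ Ge (vw w t La v.em v.FV) n) (a : V → ℕ)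
    (ha : cf a f ≠ 0) : (U.M : ℤ) * n ≤ ∑ x, a x * U.wV x := by
  have h1 : (n : ℤ) ≤ _ := Nat.cast_le.2 (h a ha)
  push_cast at h1
  have h2 := mul_le_mul_of_nonneg_left h1 (Int.natCast_nonneg U.M)
  rw [mul_sum] at h2
  refine h2.trans (sum_le_sum fun x _ => ?_)
  rw [mul_left_comm]
  exact mul_le_mul_of_nonneg_left (U.vw_le x) (by omega)

theorem to_wV {wu r : ℤ} {wd : V → ℤ} {ω : Om p (Au p) V}
    (h : ω ∈ (fil p wu (fun x => (U.M : ℤ) * v.FV x) wd).ge r) :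
    ω ∈ (fil p wu U.wV wd).ge r :=
  fil_mono (fun x _ hx => hx.trans (by
    simp only [wt]
    have := sum_le_sum (s := univ) fun i _ =>
      mul_le_mul_of_nonneg_left (U.fV_le i) (by omega : (0 : ℤ) ≤ x.2.1 i)
    omega)) h

end Su

section

variable (v : VxD w t N La V)

theorem nm_io {i : Fin 3} {x : s i} (h : (w i).kd x ≠ some (!t i)) :
    Nm v.FV (v.io i (z x)) (v.em (⟨i, x⟩, false)) := by
  refine nm_hi ?_
  rw [v.hF i x (ok_ne h)]
  exact hi_le (v.om_le i) (v.near i x h)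

theorem far' (i : Fin 3) (x : s i) (h : (w i).kd x = some (!t i)) :
    Hi v.FV (N + (w i).F x) (v.io i (z x)) := hi_le (v.om_le i) (v.far i x h)

theorem nm_rho (q : Xi w t) : Nm v.FV (v.rho (z q)) (v.em q.1) := nm_hi (v.hrho q)

theorem io_mx (i : Fin 3) (x : s i) : v.io i (z x) ∈ mx := by
  by_cases h : (w i).kd x = some (!t i)
  · exact hi_mx (far' v i x h)
  · exact (nm_io v h).mx

theorem fV_em {i : Fin 3} {x : s i} (h : (w i).kd x ≠ some (!t i)) :
    (v.FV (v.em (⟨i, x⟩, false)) : ℤ) = fq (w i) N (t i) x := by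
  rw [v.hF i x (ok_ne h), fq, fi, if_neg h, add_zero, Nat.cast_add]

theorem io_f0 (c : ℕ) (hc : 0 < c) (wu : ℤ) (i : Fin 3) (x : s i) :
    (Om.fn (bc (Au p) (v.io i (z x))) : Om p (Au p) V) ∈
      (pf v.FV c wu).ge (c * fq (w i) N (t i) x) := by
  by_cases h : (w i).kd x = some (!t i)
  · rw [fq, fi, if_pos h, ← Nat.cast_add]
    exact hi_mem (far' v i x h) c wu _
  · rw [← fV_em v h]
    exact ((nm_io v h).f0 c wu hc).lt

theorem io_f1 (c : ℕ) (hc : 0 < c) (wu : ℤ) (i : Fin 3) (x : s i) :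
    (Om.d (Om.fn (bc (Au p) (v.io i (z x)))) : Om p (Au p) V) ∈
      (pf v.FV c wu).ge (c * fq (w i) N (t i) x) :=
  d_mem (fun _ => le_rfl) (io_f0 v c hc wu i x)

end

namespace Su

variable {v : VxD w t N La V} (U : Su v)

theorem jV_em {i : Fin 3} {x : s i} (h : (w i).kd x ≠ some (!t i)) :
    U.jV (v.em (⟨i, x⟩, false)) = jq (w i) (t i) x := by
  rw [jV, U.pr_em (ok_ne h), jq]
  simp only [xi, and_true]

theorem wV_em {i : Fin 3} {x : s i} (h : (w i).kd x ≠ some (!t i)) :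
    U.wV (v.em (⟨i, x⟩, false)) = vq (w i) U.M N La (t i) x := by
  rw [wV, U.jV_em h, fV_em v h, U.pr_em (ok_ne h), vq]

/-- the main filtration -/
noncomputable abbrev WW : Fil (Om p (Au p) V) :=
  fil p (2 * (U.M * La) + 1) U.wV fun x => (U.M : ℤ) * v.FV x

/-- the second filtration -/
noncomputable abbrev JJ : Fil (Om p (Au p) V) := fil p 1 U.jV 0

theorem cg_w0 {i : Fin 3} {x : s i} (h : (w i).kd x ≠ some (!t i)) :
    U.WW.Cg (vq (w i) U.M N La (t i) x) (Om.fn (bc (Au p) (v.io i (z x))))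
      (Om.fn (bc (Au p) (z (v.em (⟨i, x⟩, false)) : O p (ZMod p) V))) := by
  by_cases h' : (w i).kd x = none
  · refine ⟨by rw [← U.wV_em h, bc_z]; exact z_mem' _, ?_⟩
    rw [← map_sub, ← map_sub]
    refine fn_bc_mem fun a ha => le_trans ?_ (U.ge_w (hi_iff.1 (v.hy i x h')) a ha)
    have h2 : (2 : ℤ) ≤ U.M := by exact_mod_cast U.two
    rw [vq, if_pos h', jq]
    push_cast
    split_ifs <;> linarith
  · have := (nm_io v h).f0 U.M (2 * (U.M * La) + 1) U.M_pos
    rw [vq, if_neg h', ← fV_em v h]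
    exact ⟨U.to_wV this.rt, U.to_wV this.sub⟩

theorem io_w0 (i : Fin 3) (x : s i) : (Om.fn (bc (Au p) (v.io i (z x))) :
    Om p (Au p) V) ∈ U.WW.ge (vq (w i) U.M N La (t i) x) := by
  by_cases h : (w i).kd x = none
  · exact (U.cg_w0 (by rw [h]; simp)).lt
  · rw [vq, if_neg h]
    exact U.to_wV (io_f0 v U.M U.M_pos _ i x)

theorem io_w1 (i : Fin 3) (x : s i) : (Om.d (Om.fn (bc (Au p) (v.io i (z x)))) :
    Om p (Au p) V) ∈ U.WW.ge (U.M * fq (w i) N (t i) x) :=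
  U.to_wV (io_f1 v U.M U.M_pos _ i x)

theorem cg_w1 {g : O p (ZMod p) V} {x : V} (h : Nm v.FV g x) :
    U.WW.Cg (U.M * v.FV x) (Om.d (Om.fn (bc (Au p) g)))
      (Om.d (Om.fn (bc (Au p) (z x : O p (ZMod p) V)))) :=
  ⟨U.to_wV (h.f1 U.M _ U.M_pos).rt, U.to_wV (h.f1 U.M _ U.M_pos).sub⟩

end Su

theorem Su.prod_eq {v : VxD w t N La V} (U : Su v) {M : Type*} [CommMonoid M]
    (g : V → M) : ∏ x, g x = (∏ i, ∏ x ∈ (w i).nr (t i), g (v.em (⟨i, x⟩, false))) *
      ∏ q : Xi w t, g (v.em q.1) := by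
  classical
  rw [← prod_filter_mul_prod_filter_not univ (fun x => ¬ xi w t (U.pr x)), prod_sigma']
  congr 1
  · refine (prod_bij (fun q _ => v.em (q, false)) ?_ ?_ ?_ fun _ _ => rfl).symm
    · rintro ⟨i, x⟩ hq
      have hx := (mem_sigma.1 hq).2
      simp only [mem_filter, mem_univ, true_and]
      rw [U.pr_em (ok_ne (ne_of_nr hx))]
      exact not_xi hx _
    · rintro ⟨i, x⟩ hq ⟨j, y⟩ hq' h
      exact congrArg Prod.fst (v.inj (ok_ne (ne_of_nr (mem_sigma.1 hq).2))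
        (ok_ne (ne_of_nr (mem_sigma.1 hq').2)) h)
    · intro x hx
      simp only [mem_filter, mem_univ, true_and] at hx
      obtain ⟨h1, h2⟩ := (ok_cases (U.ok x)).resolve_left hx
      refine ⟨(U.pr x).1, mem_sigma.2 ⟨mem_univ _, h2⟩, ?_⟩
      rw [← h1]; exact U.em_pr x
  · refine (prod_bij (fun q _ => v.em q.1) ?_ ?_ ?_ fun _ _ => rfl).symm
    · intro q _
      simp only [mem_filter, mem_univ, true_and, not_not]
      rw [U.pr_em (Vx.ok_xi q.2)]
      exact q.2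
    · intro q _ q' _ h
      exact Subtype.ext (v.inj (Vx.ok_xi q.2) (Vx.ok_xi q'.2) h)
    · intro x hx
      simp only [mem_filter, mem_univ, true_and, not_not] at hx
      exact ⟨⟨U.pr x, hx⟩, mem_univ _, U.em_pr x⟩

theorem Su.sum_eq {v : VxD w t N La V} (U : Su v) {M : Type*} [AddCommMonoid M]
    (g : V → M) : ∑ x, g x = (∑ i, ∑ x ∈ (w i).nr (t i), g (v.em (⟨i, x⟩, false))) +
      ∑ q : Xi w t, g (v.em q.1) :=
  U.prod_eq (M := Multiplicative M) g

variable {v : VxD w t N La V}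

theorem PB_io_f (v : VxD w t N La V) (i : Fin 3) {r : ℤ} {ω : Om p (Au p) (s i)}
    (h : ω ∈ (fil p 0 (fq (w i) N (t i)) (fq (w i) N (t i))).ge r) :
    PB (v.io i) ω ∈ (pf v.FV 1 0).ge r :=
  PB_mem _ (fun x => Fil.mono _ (io_f0 v 1 one_pos 0 i x) (by simp))
    (fun x => Fil.mono _ (io_f1 v 1 one_pos 0 i x) (by simp)) h

theorem Su.lx_h (U : Su v) (i : Fin 3) {h : Om p (Au p) (s i)} (hh : In ((w i).Hm N (t i)) h) :
    Lx (pf v.FV 1 0) (fil p 2 0 0) (wt 0 (fq (w i) N (t i)) (fq (w i) N (t i)) ((w i).h0 (t i) 0)) 0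
      (PB (v.io i) h) := by
  refine Sb_ind (P := (w i).Hm N (t i)) (Q := fun h => Lx _ _ _ _ (PB (v.io i) h))
    (by rw [map_zero]; exact Lx.zero) (fun a b ha hb => by rw [map_add]; exact ha.add hb)
    (fun c x hx hb => ?_) hh
  rcases hm_lt (U.pos i) hb hx with ⟨h1, h2⟩ | h1
  · refine ⟨_, PB_io_f v i (fil_smul (mu_mem ?_) c), PB_u _ (fil_smul (mu_mem ?_) c),
      by rw [sub_self]; exact zero_mem _⟩
    · rw [h1, h0_w, h0_w]
    · simp only [wt, Pi.zero_apply, mul_zero, sum_const_zero]; omega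
  · exact ⟨0, zero_mem _, zero_mem _, by
      rw [sub_zero]; exact PB_io_f v i (fil_smul (mu_mem h1) c)⟩

theorem Su.lhs (U : Su v) {a h : ∀ i, Om p (Au p) (s i)} (c : ∀ i, Ch (a i) (h i))
    (hh : ∀ i, In ((w i).Hm N (t i)) (h i)) :
    cu (Jx w t, Om.top p V, univ) (PB (v.io 0) (a 0) * PB (v.io 1) (a 1) * PB (v.io 2) (a 2) *
      PB v.rho (O.E ((-T (-1) : Au p) • bc (Au p) v.Q) • Om.e univ)) = 0 := by
  classical
  obtain ⟨g, be, hg, he⟩ := top_form v.Q v.hQ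
  have c4 : Ch (O.E ((-T (-1) : Au p) • bc (Au p) v.Q) • Om.e univ)
      (g • Om.mon (Om.top p (Xi w t)) univ) :=
    ⟨by rw [map_smul, d_top, smul_zero], be, by rw [he, add_comm]⟩
  have := (((((c 0).pb (v.io 0)).mul ((c 1).pb (v.io 1))).mul ((c 2).pb (v.io 2))).mul
    (c4.pb v.rho)).int
  rw [cu_int, this, ← cu_int]
  have l4 : Lx (pf v.FV 1 0) (fil p 2 0 0)
      (∑ q : Xi w t, (((p - 1 : ℕ) : ℤ) * v.FV (v.em q.1) + v.FV (v.em q.1)))
      (-(((p - 1 : ℕ) : ℤ) * (Fintype.card (Xi w t) : ℤ)))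
      (PB v.rho (g • Om.mon (Om.top p (Xi w t)) univ)) := by
    refine ⟨_, PB_mem (wu := 0) _ (vz := fun q => v.FV (v.em q.1)) (vd := fun q => v.FV (v.em q.1))
      (fun q => Fil.mono _ ((nm_rho v q).f0 1 0 one_pos).lt (by simp))
      (fun q => Fil.mono _ ((nm_rho v q).f1 1 0 one_pos).lt (by simp))
      (smul_mon_mem fun j _ => ?_),
      PB_u _ (smul_mon_mem fun j hj => ?_), by rw [sub_self]; exact zero_mem _⟩
    · simp [wt, Om.top, sum_add_distrib]
    · simpa [wt] using hg j hj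
  refine ((((U.lx_h 0 (hh 0)).mul (U.lx_h 1 (hh 1))).mul (U.lx_h 2 (hh 2))).mul l4).eq_zero
    (cu (Jx w t, Om.top p V, univ)) (fun a ha => cu_eq_zero ?_ ha) fun a ha => cu_eq_zero ?_ ha
  · have e := U.sum_eq fun x => ((p - 1 : ℕ) : ℤ) * v.FV x + v.FV x
    have e' : ∀ i, ∑ x ∈ (w i).nr (t i), (((p - 1 : ℕ) : ℤ) * v.FV (v.em (⟨i, x⟩, false)) +
        v.FV (v.em (⟨i, x⟩, false))) =
        wt 0 (fq (w i) N (t i)) (fq (w i) N (t i)) ((w i).h0 (t i) 0) := fun i => by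
      rw [h0_w]
      exact sum_congr rfl fun x hx => by rw [fV_em v (ne_of_nr hx)]
    simp only [e', Fin.sum_univ_three] at e
    rw [← e]
    simp [wt, Om.top, sum_add_distrib]
  · rw [card_xi]
    simp only [wt, Jx, Pi.zero_apply, mul_zero, sum_const_zero]
    push_cast
    linarith

/-- the exponents of the product of the leading monomials -/
def Su.a0 (U : Su v) (al : ∀ i, s i) (x : V) : ℕ :=
  if (U.pr x).2 = false then
    ((w (U.pr x).1.1).ld (t (U.pr x).1.1) (al (U.pr x).1.1)).2.1 (U.pr x).1.2 else 0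

theorem Su.prod_lead (U : Su v) {al : ∀ i, s i} (hal : ∀ i, (w i).kd (al i) = none) :
    ∏ i, ∏ x, (z (v.em (⟨i, x⟩, false)) : O p (Au p) V) ^ ((w i).ld (t i) (al i)).2.1 x =
      zm (U.a0 al) := by
  classical
  rw [prod_sigma', zm, ← prod_filter_of_ne (p := fun q : Σ i, s i => Ok w t (q, false))
    fun q _ h => ok_ne (ld_ne (hal q.1) fun h0 => h (by rw [h0, pow_zero]))]
  refine prod_of_injOn (fun q => v.em (q, false)) (fun q hq q' hq' h => ?_) (fun _ _ => by simp)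
    (fun x _ hx => ?_) fun q hq => ?_
  · exact congrArg Prod.fst (v.inj (mem_filter.1 hq).2 (mem_filter.1 hq').2 h)
  · rw [Su.a0, if_neg, pow_zero]
    intro h
    refine hx ⟨(U.pr x).1, ?_, ?_⟩
    · simp only [coe_filter, Set.mem_ofPred_eq, mem_sigma, mem_univ, true_and]
      rw [← h]; exact U.ok x
    · simp only; rw [← h]; exact U.em_pr x
  · rw [Su.a0, U.pr_em (mem_filter.1 hq).2, if_pos rfl]

theorem Su.sq_lead (U : Su v) :
    Sq univ (PB (p := p) (rn fun x => v.em (⟨0, x⟩, false)) (Om.e ((w 0).nr (t 0))) *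
      PB (rn fun x => v.em (⟨1, x⟩, false)) (Om.e ((w 1).nr (t 1))) *
      PB (rn fun x => v.em (⟨2, x⟩, false)) (Om.e ((w 2).nr (t 2))) *
      PB (rn fun q : Xi w t => v.em q.1) (Om.e univ)) := by
  classical
  have h1 : ∀ i, Sq (((w i).nr (t i)).image fun x => v.em (⟨i, x⟩, false))
      (PB (p := p) (rn fun x => v.em (⟨i, x⟩, false)) (Om.e ((w i).nr (t i)))) := fun i =>
    sq_rn _ fun x hx y hy h => by
      simpa using v.inj (ok_ne (ne_of_nr hx)) (ok_ne (ne_of_nr hy)) h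
  have h2 := sq_rn (p := p) (fun q : Xi w t => v.em q.1) (S := univ) fun q _ q' _ h =>
    Subtype.ext (v.inj (Vx.ok_xi q.2) (Vx.ok_xi q'.2) h)
  have m1 : ∀ i x, x ∈ (((w i).nr (t i)).image fun x => v.em (⟨i, x⟩, false)) ↔
      (U.pr x).1.1 = i ∧ ¬ xi w t (U.pr x) := fun i x => by
    rw [mem_image]
    constructor
    · rintro ⟨y, hy, rfl⟩
      rw [U.pr_em (ok_ne (ne_of_nr hy))]
      exact ⟨rfl, not_xi hy _⟩
    · rintro ⟨rfl, h⟩
      obtain ⟨h3, h4⟩ := (ok_cases (U.ok x)).resolve_left h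
      refine ⟨_, h4, ?_⟩
      rw [← h3]; exact U.em_pr x
  have m2 : ∀ x, x ∈ (univ.image fun q : Xi w t => v.em q.1) ↔ xi w t (U.pr x) := fun x => by
    rw [mem_image]
    constructor
    · rintro ⟨q, -, rfl⟩
      rw [U.pr_em (Vx.ok_xi q.2)]
      exact q.2
    · exact fun h => ⟨⟨_, h⟩, mem_univ _, U.em_pr x⟩
  have := (((h1 0).mul (h1 1) ?_).mul (h1 2) ?_).mul h2 ?_
  · convert this using 1
    ext x
    simp only [mem_union, m1, m2, mem_univ, true_iff]
    generalize (U.pr x).1.1 = i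
    fin_cases i <;> simp [em']
  all_goals
    rw [disjoint_left]
    intro x
    simp only [mem_union, m1, m2]
    generalize (U.pr x).1.1 = i
    fin_cases i <;> simp

end N255.Vh
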