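import Crest.Agent.N255.Vx.Main
import Crest.Agent.N255.Core.GenD

/-!
# Row 255 (helper76): vertex count with one weight per slot, weights on one wall
-/

set_option autoImplicit false
set_option linter.unusedSectionVars false

namespace N255.Vh

open Finset N255.Dr N255.Dr.O N255.Core N255.Vx LaurentPolynomial

/-- two filtrations with a gap `g` -/
def Lg {B : Type*} [Ring B] (F J : Fil B) (g s : ℤ) (a : B) : Prop :=
  ∃ b, b ∈ F.ge s ∧ b ∈ J.ge 0 ∧ a - b ∈ F.ge (s + g)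

section

variable {B : Type*} [Ring B] {F J : Fil B} {g s s' : ℤ} {a a' : B}

theorem Lg.of (h : a ∈ F.ge s) (h' : a ∈ J.ge 0) : Lg F J g s a :=
  ⟨a, h, h', by rw [sub_self]; exact zero_mem _⟩

theorem Lg.of' (h : a ∈ F.ge (s + g)) : Lg F J g s a :=
  ⟨0, zero_mem _, zero_mem _, by rwa [sub_zero]⟩

theorem Lg.add (h : Lg F J g s a) (h' : Lg F J g s a') : Lg F J g s (a + a') := by
  obtain ⟨b, h1, h2, h3⟩ := h
  obtain ⟨b', h1', h2', h3'⟩ := h'
  exact ⟨b + b', add_mem h1 h1', add_mem h2 h2', by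
    rw [add_sub_add_comm]; exact add_mem h3 h3'⟩

theorem Lg.mul (hg : 0 ≤ g) (h : Lg F J g s a) (h' : Lg F J g s' a') :
    Lg F J g (s + s') (a * a') := by
  obtain ⟨b, h1, h2, h3⟩ := h
  obtain ⟨b', h1', h2', h3'⟩ := h'
  refine ⟨b * b', F.mul h1 h1', J.mul' h2 h2' (by omega), ?_⟩
  have h4 : a' ∈ F.ge s' := by simpa using add_mem (F.mono h3' (by omega : s' ≤ s' + g)) h1'
  have : a * a' - b * b' = (a - b) * a' + b * (a' - b') := by noncomm_ring
  rw [this]
  exact add_mem (F.mul' h3 h4 (by omega)) (F.mul' h1 h3' (by omega))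

theorem Lg.eq_zero {M : Type*} [AddCommGroup M] (I : B →+ M) (h : Lg F J g s a)
    (hF : ∀ a ∈ F.ge (s + g), I a = 0) (hJ : ∀ a ∈ J.ge 0, I a = 0) : I a = 0 := by
  obtain ⟨b, -, h2, h3⟩ := h
  have := hF _ h3
  rw [map_sub, hJ _ h2] at this
  simpa using this

end

theorem rhs_abs {B M : Type*} [Ring B] [AddCommGroup M] (W : Fil B) (I : B →+ M) {T l θ : ℤ}
    {w : Fin 3 → ℤ} {η x : Fin 3 → B} {G G0 E ψ Θ Θ0 : B}
    (hW : ∀ a ∈ W.ge (T + 1), I a = 0) (e3 : I (η 0 * η 1 * η 2 * Θ * G) = 0)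
    (hη : ∀ i, W.Cg (w i) (η i) (x i)) (hG : W.Cg 0 G G0)
    (hΘ : W.Cg θ Θ Θ0) (hψ : ψ ∈ W.ge l)
    (hE : E - 1 - ψ ∈ W.ge (l + 1)) (hT : T = w 0 + w 1 + w 2 + θ + l) :
    I (η 0 * η 1 * η 2 * Θ * (G * E)) = I (x 0 * x 1 * x 2 * Θ0 * (G0 * ψ)) := by
  have h1 := (((hη 0).mul (hη 1)).mul (hη 2)).mul hΘ
  have h2 := h1.mul (hG.mul (Fil.Cg.refl hψ))
  have e1 := hW _ (W.mono h2.sub (by omega))
  have e2 := hW _ (W.mul' h1.lt (W.mul hG.lt hE) (by omega))
  have : η 0 * η 1 * η 2 * Θ * (G * E) = η 0 * η 1 * η 2 * Θ * G +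
      η 0 * η 1 * η 2 * Θ * (G * (E - 1 - ψ)) + (η 0 * η 1 * η 2 * Θ * (G * ψ) -
        x 0 * x 1 * x 2 * Θ0 * (G0 * ψ)) + x 0 * x 1 * x 2 * Θ0 * (G0 * ψ) := by noncomm_ring
  rw [this, map_add, map_add, map_add, e1, e2, e3]
  simp

variable {p : ℕ} [Fact p.Prime] {s : Type} [Fintype s] [DecidableEq s] {Γ : Type} [AddCommGroup Γ]
  {δ : Γ}

/-- `M` times the main weight plus the second weight -/
def vq (w : Wall p Γ δ s) (M N La : ℕ) (b : Bool) (i : s) : ℤ :=
  if w.kd i = none then M * La + jq w b i else M * fq w N b i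

variable {w : Wall p Γ δ s} {M N La : ℕ} {b : Bool} {al : s} {x : Ix s}

theorem wt_vq (x : Ix s) : wt (2 * (M * La) + 1) (vq w M N La b) (fun i => M * fq w N b i) x =
    M * w.wW N La x + w.jw b x + M * wt 0 (fi w b) (fi w b) x := by
  rw [← wt_jq]
  have : ∀ i, vq w M N La b i = M * (if w.kd i = none then (La : ℤ) else N + w.F i) + jq w b i +
      M * fi w b i := fun i => by
    unfold vq fq jq fi
    by_cases h : w.kd i = none
    · simp [h]
    · simp only [h, and_false, if_false]; ring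
  simp only [Wall.wW, wt, this, fq, mul_add, sum_add_distrib, mul_sum, Pi.zero_apply,
    sum_const_zero, mul_left_comm _ (M : ℤ)]
  ring

theorem ld_w (hal : w.kd al = none) :
    wt (2 * (M * La) + 1) (vq w M N La b) (fun i => M * fq w N b i) (w.ld b al) =
      ∑ i ∈ w.nr b, (((p - 1 : ℕ) : ℤ) * vq w M N La b i + M * fq w N b i) - M * La := by
  rw [wt, sum_ld hal, sum_add_distrib]
  cases b <;> simp [vq, jq, hal, Wall.ld] <;> ring

theorem le_jw (x : Ix s) : x.1 ≤ w.jw b x :=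
  le_add_of_nonneg_right (sum_nonneg fun i _ => by split_ifs <;> omega)

theorem exists_M (w : Wall p Γ δ s) (N : ℕ) (hL : 0 < La) : ∃ C : ℕ, ∀ b al (x : Ix s),
    (∀ i, x.2.1 i < p) → w.wW N La (w.ld b al) ≤ w.wW N La x → -(C : ℤ) ≤ w.jw b x := by
  refine ⟨(2 * La + La * w.kt + ∑ i, w.tv N i).toNat, fun b al x hx h => le_trans ?_ (le_jw x)⟩
  rw [Wall.wW_eq2, Wall.wW_eq2] at h
  have h1 := w.ky_le hx
  have h2 := w.ky_nonneg (w.ld b al)
  have h3 : ∑ i, w.gv N x i ≤ ∑ i, w.tv N i := sum_le_sum fun i _ => w.gv_le N hx i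
  have h4 : 0 ≤ ∑ i, w.gv N (w.ld b al) i := sum_nonneg fun i _ => w.gv_nonneg N _ i
  have h5 : -1 ≤ (w.ld b al).1 := by unfold Wall.ld; split_ifs <;> simp
  have h6 := Int.self_le_toNat (2 * La + La * w.kt + ∑ i, w.tv N i)
  have h7 : (1 : ℤ) ≤ La := by exact_mod_cast hL
  by_cases h0 : 0 ≤ x.1
  · omega
  · nlinarith

theorem lt_w (hG : w.Gh N La b al) (hal : w.kd al = none) (hM : 0 < M)
    (hj : 1 - (M : ℤ) ≤ w.jw b x) (hb : ∀ i, x.2.1 i < p) (hx : w.Lt N La b al x) :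
    wt (2 * (M * La) + 1) (vq w M N La b) (fun i => M * fq w N b i) (w.ld b al) + 1 ≤
      wt (2 * (M * La) + 1) (vq w M N La b) (fun i => M * fq w N b i) x := by
  have h2 := wt_fi_nonneg (w := w) (b := b) x
  have h0 : (0 : ℤ) < M := by exact_mod_cast hM
  rw [wt_vq, wt_vq, ld_j hal, fi_ld hal]
  unfold Wall.Lt at hx
  split_ifs at hx with hb'
  · rcases hx.1.lt_or_eq with h | h
    · nlinarith
    by_cases h3 : w.NoFar b x
    · rcases hG.gen hb' x hb h3 h.symm with ⟨be, h4, h5⟩ | h4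
      · exact absurd h5 (hx.2 be h4)
      · have := le_jw (w := w) (b := b) x
        nlinarith
    · have := wt_fi_pos h3
      nlinarith
  · nlinarith

/-- the pure weight of the Thom form of the near variables -/
def tp (w : Wall p Γ δ s) (N : ℕ) (b : Bool) : ℤ := wt 0 (fq w N b) (fq w N b) (w.h0 b 0)

theorem lt_n (le : ∀ i, w.kd i = none → N + w.F i ≤ La) (hal : w.kd al = none)
    (hb : ∀ i, x.2.1 i < p) (hx : w.wW N La (w.ld b al) ≤ w.wW N La x) :
    tp w N b - La ≤ wt (2 * La) (fun i => fq w N b i + 2 * La * jq w b i) (fq w N b) x := by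
  let d : s → ℤ := fun i => if w.kd i = none then La - (N + w.F i) else 0
  have d0 : ∀ i, 0 ≤ d i := fun i => by
    simp only [d]
    split_ifs with h
    · have := le i h; omega
    · rfl
  have e1 : ∀ y : Ix s, w.wW N La y = 2 * La * y.1 + w.wF N y + ∑ i, y.2.1 i * d i := fun y => by
    have : ∀ i, (if w.kd i = none then (La : ℤ) else N + w.F i) = N + w.F i + d i := fun i => by
      simp only [d]; split_ifs <;> ring
    simp only [Wall.wW, Wall.wF, wt, this, mul_add _ _ (d _), sum_add_distrib]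
    ring
  have e2 : wt (2 * La) (fun i => fq w N b i + 2 * La * jq w b i) (fq w N b) x =
      wt 0 (fq w N b) (fq w N b) x + 2 * La * w.jw b x := by
    rw [← wt_jq]
    simp only [wt, mul_add, sum_add_distrib, mul_sum, Pi.zero_apply, sum_const_zero,
      mul_left_comm _ (2 * (La : ℤ))]
    ring
  have e3 : w.wF N (w.ld b al) = w.wF N (w.h0 b 0) +
      if b = true then -((N : ℤ) + w.F al) else N + w.F al := by
    simp only [Wall.wF, wt]
    rw [sum_ld hal, sum_h0]
    simp only [Wall.ld, Wall.h0]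
    ring
  have h2 := wt_fi_nonneg (w := w) (b := b) x
  rw [e1, e1, e3, sum_ld hal] at hx
  rw [e2, tp, wt_fq, wt_fq, fi_h0]
  have e4 : d al = La - (N + w.F al) := if_pos hal
  cases b
  · have h3 : ∑ i, (x.2.1 i : ℤ) * d i ≤
        2 * La * ∑ i, if false = false ∧ w.kd i = none then (x.2.1 i : ℤ) else 0 := by
      rw [mul_sum]
      refine sum_le_sum fun i _ => ?_
      simp only [d, true_and]
      split_ifs
      · nlinarith [Int.natCast_nonneg (x.2.1 i), Int.natCast_nonneg La, Int.natCast_nonneg N,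
          Int.natCast_nonneg (w.F i)]
      · simp
    have h4 : 0 ≤ ∑ i ∈ w.nr false, ((p - 1 : ℕ) : ℤ) * d i :=
      sum_nonneg fun i _ => mul_nonneg (by omega) (d0 i)
    simp only [Wall.ld, Bool.false_eq_true, if_false, e4] at hx
    rw [Wall.jw, mul_add]
    linarith
  · have h3 : ∑ i, (x.2.1 i : ℤ) * d i ≤ ∑ i ∈ w.nr true, ((p - 1 : ℕ) : ℤ) * d i := by
      rw [← sum_h0 (w := w) (b := true) 0]
      refine sum_le_sum fun i _ => ?_
      by_cases h : w.kd i = none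
      · refine mul_le_mul_of_nonneg_right ?_ (d0 i)
        have := hb i
        simp only [Wall.h0, if_pos (mem_nr.2 (Or.inr ⟨rfl, h⟩) : i ∈ w.nr true)]
        omega
      · simp [d, h]
    have h4 : w.jw true x = x.1 := by simp [Wall.jw]
    simp only [Wall.ld, if_true, e4] at hx
    rw [h4]
    linarith

end N255.Vh
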